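import Vale.Agent.P209.Volume

/-!
Conjecture A of Siegel and Yao, sufficiency: it holds for all `k ≤ 2^n`, for all numbers of balls
when the volume condition is required up to the factor `4^n`, and in the shell case.
-/

namespace Vale.Agent.Results.P209.AllSizes

theorem result (n k : ℕ) (hn : 1 ≤ n) (R : ℝ) (r : Fin k → ℝ) (hR : 0 < R) (hr : ∀ i, 0 < r i)
    (hvol : ∑ i, r i ^ n < R ^ n) (hpair : ∀ i j, i ≠ j → r i + r j < R)
    (hk : k ≤ 2 ^ n ∨
      (∃ (i : Fin k), 4 ^ n * ∑ j ∈ Finset.univ.erase i, r j ^ n < R ^ n - r i ^ n) ∨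
      ∃ (i : Fin k) (m : ℕ), ((m : ℝ) + 1) * (R - r i) ≤ R ∧
        (k + m ^ n ≤ 1 + (m + 1) ^ n ∨ ∑ j ∈ Finset.univ.erase i, (2 * r j) ^ n <
          (((m : ℝ) + 1) ^ n - (m : ℝ) ^ n) * (R - r i) ^ n)) :
    P209.Packs n k R r := by
  have hlt : ∀ i, r i < R := by
    intro i
    have h1 : r i ^ n ≤ ∑ j, r j ^ n :=
      Finset.single_le_sum (f := fun j => r j ^ n) (fun j _ => (pow_pos (hr j) n).le)
        (Finset.mem_univ i)
    exact lt_of_pow_lt_pow_left₀ n hR.le (lt_of_le_of_lt h1 hvol)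
  rcases hk with hk | ⟨i, hi⟩ | ⟨i, m, hm, hk | hk⟩
  · exact P209.packs_two_pow (by omega) hR hlt hpair hk
  · exact P209.packs_const (by omega) i hr (hlt i) hpair hi
  · exact P209.packs_shell (by omega) i (hlt i) hpair hm hk
  · exact P209.packs_volume (by omega) i hr (hlt i) hpair hm hk

end Vale.Agent.Results.P209.AllSizes
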