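import Vale.Agent.P209.Asy.Final
import Vale.Agent.P209.Asy.BK
import Vale.Agent.P209.Asy.CELL
import Vale.Agent.P209.Asy.SHELL
import Vale.Agent.P209.Asy.TYPES
import Vale.Agent.P209.Asy.ITEM

/-!
Conjecture A of Siegel and Yao, sufficiency: exactly for `k ≤ 2^n`, for every number of balls with
the factor `4^n` in the volume condition, and with the factor `1 - ε` in the volume condition when
all balls but one are small.
-/

namespace Vale.Agent.Results.P209.AlmostFullVolume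

theorem result (n : ℕ) (hn : 1 ≤ n) (ε : ℝ) (hε : 0 < ε) :
    ∃ δ : ℝ, 0 < δ ∧ ∀ (k : ℕ) (R : ℝ) (r : Fin k → ℝ), 0 < R → (∀ j, 0 < r j) →
      ∑ j, r j ^ n < R ^ n → (∀ i j, i ≠ j → r i + r j < R) →
      (k ≤ 2 ^ n ∨
        (∃ i : Fin k, 4 ^ n * ∑ j ∈ Finset.univ.erase i, r j ^ n < R ^ n - r i ^ n) ∨
        (∃ i : Fin k, (∀ j, j ≠ i → r j ≤ δ * (R - r i)) ∧
          ∑ j ∈ Finset.univ.erase i, r j ^ n ≤ (1 - ε) * (R ^ n - r i ^ n))) →
      P209.Packs n k R r := by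
  have main : ∃ δ : ℝ, 0 < δ ∧ ∀ (R : ℝ), 0 < R → ∀ (k : ℕ) (r : Fin k → ℝ) (i : Fin k),
      (∀ j, 0 < r j) → r i < R → (∀ j, j ≠ i → r j ≤ δ * (R - r i)) →
      ∑ j ∈ Finset.univ.erase i, r j ^ n ≤ (1 - ε) * (R ^ n - r i ^ n) →
        P209.Packs n k R r := by
    by_cases hε1 : ε < 1
    · exact P209.Asy.final P209.Asy.SHELL.thm
        (P209.Asy.TYPES.thm P209.Asy.BK.thm P209.Asy.CELL.thm) P209.Asy.ITEM.thm n hn ε hε hε1
    · obtain ⟨δ, hδ, h⟩ := P209.Asy.final P209.Asy.SHELL.thm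
        (P209.Asy.TYPES.thm P209.Asy.BK.thm P209.Asy.CELL.thm) P209.Asy.ITEM.thm n hn (1 / 2)
        (by norm_num) (by norm_num)
      refine ⟨δ, hδ, fun R hR k r i hr h1 h2 h3 => ?_⟩
      refine h R hR k r i hr h1 h2 (h3.trans ?_)
      have h4 : r i ^ n ≤ R ^ n := pow_le_pow_left₀ (hr i).le h1.le n
      have h5 : (1 - ε) * (R ^ n - r i ^ n) ≤ 0 :=
        mul_nonpos_of_nonpos_of_nonneg (by linarith) (by linarith)
      have h6 : 0 ≤ (1 - 1 / 2 : ℝ) * (R ^ n - r i ^ n) :=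
        mul_nonneg (by norm_num) (by linarith)
      exact h5.trans h6
  obtain ⟨δ, hδ, h⟩ := main
  refine ⟨δ, hδ, fun k R r hR hr hvol hpair hk => ?_⟩
  have hlt : ∀ i, r i < R := by
    intro i
    have h1 : r i ^ n ≤ ∑ j, r j ^ n :=
      Finset.single_le_sum (f := fun j => r j ^ n) (fun j _ => (pow_pos (hr j) n).le)
        (Finset.mem_univ i)
    exact lt_of_pow_lt_pow_left₀ n hR.le (lt_of_le_of_lt h1 hvol)
  rcases hk with hk | ⟨i, hi⟩ | ⟨i, h1, h2⟩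
  · exact P209.packs_two_pow (by omega) hR hlt hpair hk
  · exact P209.packs_const (by omega) i hr (hlt i) hpair hi
  · exact h R hR k r i hr (hlt i) h1 h2

end Vale.Agent.Results.P209.AlmostFullVolume
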