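import Vale.Agent.P209.Asy.Multi
import Vale.Agent.P209.Asy.FF
import Vale.Agent.P209.Asy.PART

/-!
Conjecture A of Siegel and Yao, sufficiency: exactly for `k ≤ 2^n`, for every number of balls with
the factor `4^n` in the volume condition, and with the factor `1 - ε` in the volume condition when
all balls but one are small, or all balls but `m ^ n` balls of capacity less than `R / m`.
-/

namespace Vale.Agent.Results.P209.LargeBallsAndDust

theorem result (n m : ℕ) (hn : 1 ≤ n) (hm : 1 ≤ m) (ε : ℝ) (hε : 0 < ε) :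
    ∃ δ : ℝ, 0 < δ ∧ ∀ (k : ℕ) (R : ℝ) (r : Fin k → ℝ), 0 < R → (∀ j, 0 < r j) →
      ∑ j, r j ^ n < R ^ n → (∀ i j, i ≠ j → r i + r j < R) →
      (k ≤ 2 ^ n ∨
        (∃ i : Fin k, 4 ^ n * ∑ j ∈ Finset.univ.erase i, r j ^ n < R ^ n - r i ^ n) ∨
        (∃ i : Fin k, (∀ j, j ≠ i → r j ≤ δ * (R - r i)) ∧
          ∑ j ∈ Finset.univ.erase i, r j ^ n ≤ (1 - ε) * (R ^ n - r i ^ n)) ∨
        (∃ B : Finset (Fin k), B.card ≤ m ^ n ∧ (∀ j ∈ B, r j < R / m) ∧
          (∀ j, j ∉ B → r j ≤ δ * R) ∧ ∑ j, r j ^ n ≤ (1 - ε) * R ^ n)) →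
      P209.Packs n k R r := by
  have hε' : 0 < min ε (1 / 2) := by positivity
  have hε1 : min ε (1 / 2) < 1 := (min_le_right _ _).trans_lt (by norm_num)
  have hle : (1 - ε) ≤ (1 - min ε (1 / 2)) := by linarith [min_le_left ε (1 / 2)]
  obtain ⟨δ1, hδ1, h1⟩ := P209.Asy.final P209.Asy.SHELL.thm
    (P209.Asy.TYPES.thm P209.Asy.BK.thm P209.Asy.CELL.thm) P209.Asy.ITEM.thm n hn _ hε' hε1
  obtain ⟨δ2, hδ2, h2⟩ := P209.Asy.multi P209.Asy.PART.thm (P209.Asy.FF.thm P209.Asy.SHELL.thm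
    (P209.Asy.TYPES.thm P209.Asy.BK.thm P209.Asy.CELL.thm) P209.Asy.ITEM.thm) n m hn hm _ hε' hε1
  refine ⟨min δ1 δ2, lt_min hδ1 hδ2, fun k R r hR hr hvol hpair hk => ?_⟩
  have hlt : ∀ i, r i < R := by
    intro i
    have h1 : r i ^ n ≤ ∑ j, r j ^ n :=
      Finset.single_le_sum (f := fun j => r j ^ n) (fun j _ => (pow_pos (hr j) n).le)
        (Finset.mem_univ i)
    exact lt_of_pow_lt_pow_left₀ n hR.le (lt_of_le_of_lt h1 hvol)
  rcases hk with hk | ⟨i, hi⟩ | ⟨i, h3, h4⟩ | ⟨B, h3, h4, h5, h6⟩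
  · exact P209.packs_two_pow (by omega) hR hlt hpair hk
  · exact P209.packs_const (by omega) i hr (hlt i) hpair hi
  · refine h1 R hR k r i hr (hlt i) (fun j hj => (h3 j hj).trans ?_) (h4.trans ?_)
    · exact mul_le_mul_of_nonneg_right (min_le_left _ _) (by linarith [hlt i])
    · apply mul_le_mul_of_nonneg_right hle
      have : r i ^ n ≤ R ^ n := pow_le_pow_left₀ (hr i).le (hlt i).le n
      linarith
  · have hm0 : (0 : ℝ) < m := by exact_mod_cast hm
    refine h2 k R r B hR hr h3 (fun j hj => ?_) (fun j hj => (h5 j hj).trans ?_) (h6.trans ?_)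
    · have := h4 j hj
      rw [lt_div_iff₀ hm0] at this
      linarith
    · exact mul_le_mul_of_nonneg_right (min_le_right _ _) hR.le
    · exact mul_le_mul_of_nonneg_right hle (by positivity)

end Vale.Agent.Results.P209.LargeBallsAndDust
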